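import Vale.Agent.P251.I.Spaces
import Vale.Agent.P251.G.Glue

/-!
# P251: distinguished triangles of cofibre sequences of spaces

For `F : SpaceFunctor T`: the suspension isomorphism `S (X × ℝ) ≅ (S X)⟦1⟧`, the distinguished
triangle of a mapping cone, the distinguished triangle `S A ⟶ S B ⟶ S (cof i) ⟶ (S A)⟦1⟧` of a
cofibration `i : A ⟶ B` (with its naturality), homotopy equivalences go to isomorphisms,
contractible spaces to zero, disjoint unions to coproducts.
-/

open CategoryTheory MonoidalCategory Limits Pretriangulated Topology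

universe v u

namespace Vale.Agent.P251.I

open G G.LC Vale.Agent.P251.T

/-- the mapping cone as an object of `FCat` -/
noncomputable abbrev coneF {X Y : FCat} (f : X ⟶ Y) : FCat :=
  ⟨cone f.hom, FC.cone X.property Y.property f.hom⟩

/-- the inclusion of the target in the mapping cone -/
noncomputable abbrev coneInrF {X Y : FCat} (f : X ⟶ Y) : Y ⟶ coneF f := FCat.hom (coneInr f.hom)

/-- the collapse of the mapping cone -/
noncomputable abbrev coneConnF {X Y : FCat} (f : X ⟶ Y) : coneF f ⟶ X ⊗ RRF :=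
  FCat.hom (coneConn f.hom)

/-- the strict cofibre as an object of `FCat` -/
abbrev cofF {A B : FCat} (i : A ⟶ B) (hi : Cofib i.hom) : FCat :=
  ⟨cof i.hom, FC.cof hi A.property B.property⟩

/-- the projection to the strict cofibre -/
noncomputable abbrev cofMapF {A B : FCat} (i : A ⟶ B) (hi : Cofib i.hom) : B ⟶ cofF i hi :=
  FCat.hom (cofMap i.hom)

/-- the homotopy equivalence from the cone to the strict cofibre -/
noncomputable abbrev coneToCofF {A B : FCat} (i : A ⟶ B) (hi : Cofib i.hom) :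
    coneF i ⟶ cofF i hi :=
  FCat.hom (coneToCof i.hom)

/-- Replace the third object of a distinguished triangle by an isomorphic one. -/
theorem dist_of_iso₃ {T : Type u} [Category.{v} T] [Preadditive T] [HasZeroObject T]
    [HasShift T ℤ] [∀ n : ℤ, (shiftFunctor T n).Additive] [Pretriangulated T] {X Y Z Z' : T}
    {f : X ⟶ Y} {g : Y ⟶ Z} {h : Z ⟶ X⟦(1 : ℤ)⟧} (hT : Triangle.mk f g h ∈ distTriang T)
    (e : Z ≅ Z') {g' : Y ⟶ Z'} {h' : Z' ⟶ X⟦(1 : ℤ)⟧} (hg : g ≫ e.hom = g')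
    (hh : e.hom ≫ h' = h) : Triangle.mk f g' h' ∈ distTriang T := by
  refine isomorphic_distinguished _ hT _ ?_
  refine (Triangle.isoMk (Triangle.mk f g h) (Triangle.mk f g' h') (Iso.refl X) (Iso.refl Y) e
    ?_ ?_ ?_).symm
  · change f ≫ 𝟙 Y = 𝟙 X ≫ f
    simp
  · change g ≫ e.hom = 𝟙 Y ≫ g'
    simp [hg]
  · change h ≫ (𝟙 X)⟦(1 : ℤ)⟧' = e.hom ≫ h'
    simp [hh]

namespace SpaceFunctor

variable {T : Type u} [Category.{v} T] [Preadditive T] [HasZeroObject T]
    [HasShift T ℤ] [∀ n : ℤ, (shiftFunctor T n).Additive] [Pretriangulated T]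
    [MonoidalCategory T] [SymmetricCategory T] [TensorTriangulated T] (F : SpaceFunctor T)

/-- the suspension isomorphism -/
noncomputable def suspIso (X : FCat) : F.S.obj (X ⊗ RRF) ≅ (F.S.obj X)⟦(1 : ℤ)⟧ :=
  (Functor.Monoidal.μIso F.S X RRF).symm ≪≫ whiskerLeftIso (F.S.obj X) F.line ≪≫
    TensorTriangulated.e (F.S.obj X)

@[reassoc]
theorem suspIso_naturality {X Y : FCat} (f : X ⟶ Y) :
    F.S.map (f ▷ RRF) ≫ (F.suspIso Y).hom = (F.suspIso X).hom ≫ (F.S.map f)⟦(1 : ℤ)⟧' := by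
  simp only [suspIso, Iso.trans_hom, Iso.symm_hom, Functor.Monoidal.μIso_inv,
    whiskerLeftIso_hom, Category.assoc]
  rw [← TensorTriangulated.e_naturality, whisker_exchange_assoc,
    Functor.OplaxMonoidal.δ_natural_left_assoc]

/-- the third map of the triangle of a mapping cone -/
noncomputable def coneδ {X Y : FCat} (f : X ⟶ Y) : F.S.obj (coneF f) ⟶ (F.S.obj X)⟦(1 : ℤ)⟧ :=
  F.S.map (coneConnF f) ≫ (F.suspIso X).hom

theorem cone_distinguished {X Y : FCat} (f : X ⟶ Y) :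
    Triangle.mk (F.S.map f) (F.S.map (coneInrF f)) (F.coneδ f) ∈ distTriang T := by
  have h := F.cone f (coneInrF f) (coneInl f.hom) (isPushout_cone f.hom) (coneConnF f)
    (coneInr_conn f.hom) (coneInl_conn f.hom)
  exact h

theorem map_hom_eq {X Y : FCat} {f g : X ⟶ Y} (h : Homotopic f.hom g.hom) :
    F.S.map f = F.S.map g := F.map_eq f g h

theorem isIso_map {X Y : FCat} (f : X ⟶ Y) (hf : IsHEquiv f.hom) : IsIso (F.S.map f) := by
  obtain ⟨g, h1, h2⟩ := hf
  refine ⟨F.S.map (FCat.hom g), ?_, ?_⟩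
  · rw [← Functor.map_comp, ← CategoryTheory.Functor.map_id]
    exact F.map_eq _ _ h1
  · rw [← Functor.map_comp, ← CategoryTheory.Functor.map_id]
    exact F.map_eq _ _ h2

theorem coneδ_naturality {X Y X' Y' : FCat} (f : X ⟶ Y) (f' : X' ⟶ Y') (a : X ⟶ X')
    (b : Y ⟶ Y') (w : f ≫ b = a ≫ f') :
    F.S.map (FCat.hom (coneMap a.hom b.hom (congrArg (·.hom) w))) ≫ F.coneδ f' =
      F.coneδ f ≫ (F.S.map a)⟦(1 : ℤ)⟧' := by
  have h : (FCat.hom (coneMap a.hom b.hom (congrArg (·.hom) w)) : coneF f ⟶ coneF f') ≫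
      coneConnF f' = coneConnF f ≫ a ▷ RRF := by
    ext1
    exact coneMap_conn a.hom b.hom (congrArg (·.hom) w)
  rw [coneδ, coneδ, Category.assoc, ← suspIso_naturality, ← Functor.map_comp_assoc,
    ← Functor.map_comp_assoc, h]

instance isIso_coneToCofF {A B : FCat} (i : A ⟶ B) (hi : Cofib i.hom) :
    IsIso (F.S.map (coneToCofF i hi)) := F.isIso_map _ (isHEquiv_coneToCof hi)

/-- the connecting map of a cofibration -/
noncomputable def cofδ {A B : FCat} (i : A ⟶ B) (hi : Cofib i.hom) :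
    F.S.obj (cofF i hi) ⟶ (F.S.obj A)⟦(1 : ℤ)⟧ :=
  inv (F.S.map (coneToCofF i hi)) ≫ F.coneδ i

@[reassoc (attr := simp)]
theorem map_coneToCofF_cofδ {A B : FCat} (i : A ⟶ B) (hi : Cofib i.hom) :
    F.S.map (coneToCofF i hi) ≫ F.cofδ i hi = F.coneδ i := by
  rw [cofδ, IsIso.hom_inv_id_assoc]

/-- The distinguished triangle of a cofibration. -/
theorem cof_distinguished {A B : FCat} (i : A ⟶ B) (hi : Cofib i.hom) :
    Triangle.mk (F.S.map i) (F.S.map (cofMapF i hi)) (F.cofδ i hi) ∈ distTriang T := by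
  refine dist_of_iso₃ (F.cone_distinguished i) (asIso (F.S.map (coneToCofF i hi))) ?_
    (F.map_coneToCofF_cofδ i hi)
  rw [asIso_hom, ← Functor.map_comp]
  congr 1
  ext1
  exact coneInr_coneToCof i.hom

/-- Naturality of the connecting map of a cofibration. -/
theorem cofδ_naturality {A B A' B' : FCat} (i : A ⟶ B) (hi : Cofib i.hom) (i' : A' ⟶ B')
    (hi' : Cofib i'.hom) (a : A ⟶ A') (b : B ⟶ B') (w : i ≫ b = a ≫ i')
    (c : cofF i hi ⟶ cofF i' hi') (hc : cofMap i.hom ≫ c.hom = b.hom ≫ cofMap i'.hom) :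
    F.S.map c ≫ F.cofδ i' hi' = F.cofδ i hi ≫ (F.S.map a)⟦(1 : ℤ)⟧' := by
  have w' : i.hom ≫ b.hom = a.hom ≫ i'.hom := congrArg (·.hom) w
  have key : coneToCofF i hi ≫ c =
      (FCat.hom (coneMap a.hom b.hom w') : coneF i ⟶ coneF i') ≫ coneToCofF i' hi' := ?_
  · rw [← cancel_epi (F.S.map (coneToCofF i hi)), map_coneToCofF_cofδ_assoc,
      ← F.coneδ_naturality i i' a b w, ← F.map_coneToCofF_cofδ i' hi', ← Functor.map_comp_assoc,
      ← Functor.map_comp_assoc, key]
  ext1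
  change coneToCof i.hom ≫ c.hom = coneMap a.hom b.hom w' ≫ coneToCof i'.hom
  apply cone_hom_ext
  · rw [coneInl_coneToCof_assoc, coneInl_map_assoc, coneInl_coneToCof, zero_comp, comp_zero]
  · rw [coneInr_coneToCof_assoc, coneInr_map_assoc, coneInr_coneToCof, hc]

/-- a space which is contractible (as a pointed space) goes to zero -/
theorem isZero_of_hequiv_empty {X E : FCat} (hE : IsEmpty E.obj) (h : HEquiv X.obj E.obj) :
    IsZero (F.S.obj X) := by
  obtain ⟨f, g, h1, h2⟩ := h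
  have := F.isIso_map (FCat.hom f : X ⟶ E) ⟨g, h1, h2⟩
  exact (F.isZero hE).of_iso (asIso (F.S.map (FCat.hom f : X ⟶ E)))

/-- zero morphisms go to zero morphisms -/
theorem map_zero {X Y : FCat} (f : X ⟶ Y) (hf : f.hom = 0) : F.S.map f = 0 := by
  let E : FCat := ⟨LC.of Empty, FC.empty⟩
  have h : f = (FCat.hom (0 : X.obj ⟶ LC.of Empty) : X ⟶ E) ≫
      (FCat.hom (0 : LC.of Empty ⟶ Y.obj) : E ⟶ Y) := by
    ext1
    rw [hf]
    exact (zero_comp).symm
  rw [h, Functor.map_comp]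
  have hE : IsZero (F.S.obj E) := F.isZero (inferInstanceAs (IsEmpty Empty))
  rw [hE.eq_of_tgt (F.S.map _) 0, zero_comp]

theorem map_eq_zero {X Y : FCat} (f : X ⟶ Y) (hf : Homotopic f.hom 0) : F.S.map f = 0 := by
  rw [F.map_eq f (FCat.hom (0 : X.obj ⟶ Y.obj)) hf]
  exact F.map_zero _ rfl

theorem isZero_of_contr {X : FCat} (h : Contr X.obj) : IsZero (F.S.obj X) := by
  rw [IsZero.iff_id_eq_zero, ← CategoryTheory.Functor.map_id]
  exact F.map_eq_zero _ h

end SpaceFunctor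

section sum

theorem cofib_sumInl (X Y : LC) : Cofib (sumInl X Y) :=
  Cofib.pushout (i := (0 : LC.of Empty ⟶ Y)) (f := (0 : LC.of Empty ⟶ X)) (g := sumInr X Y)
    (cofib_of_isEmpty _) (isPushout_sum X Y isZero_empty 0 0).flip

/-- The strict cofibre of the inclusion of a summand. -/
noncomputable def cofSumInl (X Y : LC) : cof (sumInl X Y) ≅ Y where
  hom := cofDesc _ (sumDesc 0 (𝟙 Y)) (sumInl_desc _ _)
  inv := sumInr X Y ≫ cofMap _
  hom_inv_id := by
    rw [← cancel_epi (cofMap (sumInl X Y)), cofMap_cofDesc_assoc, Category.comp_id]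
    apply sum_hom_ext
    · rw [sumInl_desc_assoc, zero_comp, comp_cofMap]
    · rw [sumInr_desc_assoc, Category.id_comp]
  inv_hom_id := by
    rw [Category.assoc, cofMap_cofDesc, sumInr_desc]

variable (X Y : FCat)

/-- the disjoint union in `FCat` -/
abbrev sumF : FCat := ⟨LC.sum X.obj Y.obj, FC.sum X.property Y.property⟩

/-- the first inclusion -/
noncomputable abbrev inlF : X ⟶ sumF X Y := FCat.hom (sumInl X.obj Y.obj)

/-- the second inclusion -/
noncomputable abbrev inrF : Y ⟶ sumF X Y := FCat.hom (sumInr X.obj Y.obj)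

variable {X Y} in
/-- the map out of a disjoint union -/
noncomputable abbrev descF {Z : FCat} (f : X ⟶ Z) (g : Y ⟶ Z) : sumF X Y ⟶ Z :=
  FCat.hom (sumDesc f.hom g.hom)

@[reassoc (attr := simp)]
theorem inlF_descF {Z : FCat} (f : X ⟶ Z) (g : Y ⟶ Z) : inlF X Y ≫ descF f g = f := by
  ext1
  exact sumInl_desc _ _

@[reassoc (attr := simp)]
theorem inrF_descF {Z : FCat} (f : X ⟶ Z) (g : Y ⟶ Z) : inrF X Y ≫ descF f g = g := by
  ext1
  exact sumInr_desc _ _

end sum

namespace SpaceFunctor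

variable {T : Type u} [Category.{v} T] [Preadditive T] [HasZeroObject T]
    [HasShift T ℤ] [∀ n : ℤ, (shiftFunctor T n).Additive] [Pretriangulated T]
    [MonoidalCategory T] [SymmetricCategory T] [TensorTriangulated T] (F : SpaceFunctor T)

theorem sum_hom_ext {X Y : FCat} {Z : T} {f g : F.S.obj (sumF X Y) ⟶ Z}
    (h1 : F.S.map (inlF X Y) ≫ f = F.S.map (inlF X Y) ≫ g)
    (h2 : F.S.map (inrF X Y) ≫ f = F.S.map (inrF X Y) ≫ g) : f = g := by
  rw [← sub_eq_zero] at h1 h2 ⊢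
  rw [← Preadditive.comp_sub] at h1 h2
  obtain ⟨ψ, hψ⟩ : ∃ ψ : F.S.obj (cofF (inlF X Y) (cofib_sumInl X.obj Y.obj)) ⟶ Z,
      f - g = F.S.map (cofMapF (inlF X Y) (cofib_sumInl X.obj Y.obj)) ≫ ψ :=
    Triangle.yoneda_exact₂ _
      (F.cof_distinguished (inlF X Y) (cofib_sumInl X.obj Y.obj)) (f - g) h1
  rw [hψ, ← Functor.map_comp_assoc] at h2
  have hi : IsIso (F.S.map (inrF X Y ≫ cofMapF (inlF X Y) (cofib_sumInl X.obj Y.obj))) := by
    apply F.isIso_map
    exact isHEquiv_of_iso (cofSumInl X.obj Y.obj).inv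
  rw [hψ, (cancel_epi (F.S.map (inrF X Y ≫ cofMapF (inlF X Y)
    (cofib_sumInl X.obj Y.obj)))).1 (h2.trans comp_zero.symm), comp_zero]

/-- The morphism out of `S (X ⊔ Y)`. -/
noncomputable def sumDesc {X Y : FCat} {Z : T} (a : F.S.obj X ⟶ Z) (b : F.S.obj Y ⟶ Z) :
    F.S.obj (sumF X Y) ⟶ Z :=
  F.S.map (descF (𝟙 X) (FCat.hom 0)) ≫ a + F.S.map (descF (FCat.hom 0) (𝟙 Y)) ≫ b

@[reassoc (attr := simp)]
theorem inl_sumDesc {X Y : FCat} {Z : T} (a : F.S.obj X ⟶ Z) (b : F.S.obj Y ⟶ Z) :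
    F.S.map (inlF X Y) ≫ F.sumDesc a b = a := by
  rw [sumDesc, Preadditive.comp_add, ← Functor.map_comp_assoc, ← Functor.map_comp_assoc, inlF_descF,
    inlF_descF, CategoryTheory.Functor.map_id, Category.id_comp, F.map_zero (FCat.hom 0) rfl,
    zero_comp, add_zero]

@[reassoc (attr := simp)]
theorem inr_sumDesc {X Y : FCat} {Z : T} (a : F.S.obj X ⟶ Z) (b : F.S.obj Y ⟶ Z) :
    F.S.map (inrF X Y) ≫ F.sumDesc a b = b := by
  rw [sumDesc, Preadditive.comp_add, ← Functor.map_comp_assoc, ← Functor.map_comp_assoc, inrF_descF,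
    inrF_descF, CategoryTheory.Functor.map_id, Category.id_comp, F.map_zero (FCat.hom 0) rfl,
    zero_comp, zero_add]

/-- A suspension spectrum functor takes disjoint unions to coproducts. -/
noncomputable def isColimitSum (X Y : FCat) :
    IsColimit (BinaryCofan.mk (F.S.map (inlF X Y)) (F.S.map (inrF X Y))) :=
  BinaryCofan.isColimitMk (fun s => F.sumDesc (Z := s.pt) s.inl s.inr)
    (fun s => F.inl_sumDesc (Z := s.pt) s.inl s.inr)
    (fun s => F.inr_sumDesc (Z := s.pt) s.inl s.inr)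
    (fun s _ h1 h2 => F.sum_hom_ext (h1.trans (F.inl_sumDesc (Z := s.pt) s.inl s.inr).symm)
      (h2.trans (F.inr_sumDesc (Z := s.pt) s.inl s.inr).symm))

/-- On a disjoint union the sum of the two projections and inclusions is the identity. -/
theorem sum_total (X Y : FCat) :
    F.S.map (descF (𝟙 X) (FCat.hom 0)) ≫ F.S.map (inlF X Y) +
      F.S.map (descF (FCat.hom 0) (𝟙 Y)) ≫ F.S.map (inrF X Y) = 𝟙 _ := by
  apply F.sum_hom_ext
  · exact (F.inl_sumDesc _ _).trans (Category.comp_id _).symm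
  · exact (F.inr_sumDesc _ _).trans (Category.comp_id _).symm

end SpaceFunctor

end Vale.Agent.P251.I
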