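import Vale.Agent.P251.G.Retract
import Vale.Agent.P251.T.Axioms
import Mathlib.CategoryTheory.Monoidal.Subcategory
import Mathlib.Analysis.SpecialFunctions.Log.Basic

/-!
# P251: the suspension spectrum functor (interface between the spaces and `T`)

`FCat` is the symmetric monoidal category of finite cell spaces: objects are the locally compact
Hausdorff spaces in `LC.FC`, morphisms are the pointed maps of one-point compactifications, the
tensor product is the product of spaces (= smash product of the one-point compactifications).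

`SpaceFunctor T` is a suspension spectrum functor `S : FCat ⥤ T` to a tensor triangulated
category: a symmetric monoidal functor, homotopy invariant, sending the line to the suspension of
the unit and mapping cone sequences to distinguished triangles, such that morphisms in `T` between
suspension spectra are the stable homotopy classes of pointed maps.
-/

open CategoryTheory MonoidalCategory Limits Pretriangulated Topology

universe v u

namespace Vale.Agent.P251

namespace G.LC

/-- the open embedding `ℝ → [0, ∞)`, `t ↦ exp t`, onto the interior of the half line -/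
noncomputable def expH (t : ℝ) : NNReal := ⟨Real.exp t, (Real.exp_pos t).le⟩

theorem isOpenEmbedding_expH : IsOpenEmbedding expH := by
  have h1 : Continuous expH := Real.continuous_exp.subtype_mk _
  have h2 : Function.Injective expH := fun a b h =>
    Real.exp_injective (congrArg Subtype.val h)
  refine IsOpenEmbedding.of_continuous_injective_isOpenMap h1 h2 ?_
  intro U hU
  rw [isOpen_iff_mem_nhds]
  rintro _ ⟨t, ht, rfl⟩
  have hpos : (0 : NNReal) < expH t := Real.exp_pos t
  have hc : ContinuousAt (fun x : NNReal => Real.log (x : ℝ)) (expH t) :=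
    (NNReal.continuous_coe.continuousAt).log (ne_of_gt (Real.exp_pos t))
  have hlog : Real.log ((expH t : NNReal) : ℝ) = t := Real.log_exp t
  have hU' : U ∈ 𝓝 (Real.log ((expH t : NNReal) : ℝ)) := by
    rw [hlog]; exact hU.mem_nhds ht
  filter_upwards [hc hU', lt_mem_nhds hpos] with x hx hx0
  refine ⟨Real.log (x : ℝ), hx, ?_⟩
  apply NNReal.eq
  change Real.exp (Real.log (x : ℝ)) = x
  exact Real.exp_log hx0

/-- the collapse of the half line `[0, ∞)` onto its interior `(0, ∞) ≅ ℝ` -/
noncomputable def openPart : HH ⟶ RR := ofOpen (X := HH) (Y := RR) expH isOpenEmbedding_expH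

/-- the inclusion `x ↦ (x, 0)` of `X` in `X × [0, ∞)` -/
noncomputable def inclH (X : LC) : X ⟶ X ⊗ HH := (ρ_ X).inv ≫ X ◁ point (X := HH) (0 : NNReal)

/-- the line is a finite cell space -/
theorem fcRR : FC RR := (FC.sph 1).of_homeo (Y := RR) (Homeomorph.funUnique (Fin 1) ℝ)

end G.LC

namespace I

open G G.LC Vale.Agent.P251.T

/-- the class of finite cell spaces as a property of objects of `LC` -/
abbrev FCP : ObjectProperty LC := FCProp

/-- The category of finite cell spaces. -/
abbrev FCat : Type 1 := FCP.FullSubcategory

/-- a finite cell space as an object of `FCat` -/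
abbrev FCat.mk {X : LC} (h : LC.FC X) : FCat := ⟨X, h⟩

/-- A morphism of `LC` between finite cell spaces as a morphism of `FCat`. -/
abbrev FCat.hom {X Y : FCat} (f : X.obj ⟶ Y.obj) : X ⟶ Y := ObjectProperty.homMk f

/-- the line `ℝ` (whose one-point compactification is the circle) -/
abbrev RRF : FCat := ⟨RR, fcRR⟩

/-- the sphere: the space `ℝⁿ` -/
abbrev SphF (n : ℕ) : FCat := ⟨Sph n, .sph n⟩

/-- A suspension spectrum functor. -/
structure SpaceFunctor (T : Type u) [Category.{v} T] [Preadditive T] [HasZeroObject T]
    [HasShift T ℤ] [∀ n : ℤ, (shiftFunctor T n).Additive] [Pretriangulated T]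
    [MonoidalCategory T] [SymmetricCategory T] [TensorTriangulated T] where
  /-- the suspension spectrum functor on finite cell spaces -/
  S : FCat ⥤ T
  /-- it is a symmetric monoidal functor -/
  [braided : S.Braided]
  /-- the empty space (whose one-point compactification is the base point) goes to zero -/
  isZero {X : FCat} : IsEmpty X.obj → IsZero (S.obj X)
  /-- it is homotopy invariant -/
  map_eq {X Y : FCat} (f g : X ⟶ Y) : Homotopic f.hom g.hom → S.map f = S.map g
  /-- the line goes to the suspension of the unit -/
  line : S.obj RRF ≅ (𝟙_ T)⟦(1 : ℤ)⟧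
  /-- mapping cones `C = Y ∪_X (X × [0, ∞))` go to distinguished triangles
  `S X ⟶ S Y ⟶ S C ⟶ S (X × ℝ) ≅ S X ⊗ 𝟙⟦1⟧ ≅ (S X)⟦1⟧`. -/
  cone {X Y C : FCat} (f : X ⟶ Y) (j : Y ⟶ C) (k : X.obj ⊗ HH ⟶ C.obj)
    (hsq : IsPushout (inclH X.obj) f.hom k j.hom) (d : C ⟶ X ⊗ RRF)
    (hj : j.hom ≫ d.hom = 0) (hk : k ≫ d.hom = X.obj ◁ openPart) :
    Triangle.mk (S.map f) (S.map j)
      (S.map d ≫ (Functor.Monoidal.μIso S X RRF).inv ≫
        (S.obj X ◁ line.hom) ≫ (TensorTriangulated.e (S.obj X)).hom) ∈ distTriang T
  /-- every morphism between suspension spectra is stably induced by a pointed map -/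
  full {X Y : FCat} (g : S.obj X ⟶ S.obj Y) : ∃ (n : ℕ) (h : X ⊗ SphF n ⟶ Y ⊗ SphF n),
    S.map h = (Functor.Monoidal.μIso S X (SphF n)).inv ≫ (g ▷ S.obj (SphF n)) ≫
      (Functor.Monoidal.μIso S Y (SphF n)).hom
  /-- pointed maps inducing the same morphism are stably homotopic -/
  faithful {X Y : FCat} (f g : X ⟶ Y) : S.map f = S.map g →
    ∃ n : ℕ, Homotopic (f.hom ▷ Sph n) (g.hom ▷ Sph n)

attribute [instance] SpaceFunctor.braided

end I

end Vale.Agent.P251
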