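import Vale.Agent.P251.M.MUInv
import Vale.Agent.P251.M.ThK
import Vale.Agent.P251.M.GBasis
import Vale.Agent.P251.M.CobDec
import Vale.Agent.P251.Q.FGL
import Vale.Agent.P251.M.Orient
import Vale.Agent.P251.M.ThFCInst

/-!
# P251, part M: second frozen interface (for part Z)

`MUUniv e D` for `D : MUData T` (`MU`) and `e : Σ ℂ ≅ 𝟙⟦1⟧ ⊗ 𝟙⟦1⟧`:

* `basis` : `R ⊗ R` is the coproduct of the `R ⊗ S^{2|a|}` through the monomials
  `b^a`, `b_i` = the coefficients of the strict isomorphism between the two formal group laws;
* `univ` : a multiplicative family of Thom classes in a commutative monoid `K` defines a morphism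
  of monoids `MU ⟶ K`, compatible with the formal group laws.
-/

open CategoryTheory MonoidalCategory Limits Pretriangulated MonObj

universe v u

namespace Vale.Agent.P251.I

open Vale.Agent.P251.T Vale.Agent.P251.M Vale.Agent.P251.S Vale.Agent.P251.F

/-- Second output of part M, for part Z. -/
structure MUUniv {T : Type u} [Category.{v} T] [Preadditive T] [HasZeroObject T]
    [HasShift T ℤ] [∀ n : ℤ, (shiftFunctor T n).Additive] [Pretriangulated T] [IsTriangulated T]
    [MonoidalCategory T] [SymmetricCategory T] [TensorTriangulated T] [MonoidalClosed T]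
    [HasCoproducts.{0} T] [HasProducts.{0} T] [StableCat T]
    {F : SpaceFunctor T} (e : F.S.obj CCF ≅ (stdEven T).L) (D : MUData T) : Prop where
  /-- the monomials `b^a` form a basis of `R ⊗ R` over the first factor -/
  basis : ∃ b : GBasis (stdEven T) (inlM (Am D.R 1) D.R) (ℕ →₀ ℕ),
    (∀ a, b.k a = Cob.degU a) ∧
    ∀ a, HRing.of (stdEven T) (Am D.R 2) (b.k a) (b.w a) =
      D.ev 1 (MvPolynomial.monomial (Cob.last 0 a) 1)
  /-- multiplicative families of Thom classes define monoid maps -/
  univ (K : T) [MonObj K] [IsCommMonObj K]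
    (W : ThomFam (RSys K (stdEven T)) F (lineCls e (SeqMonoid.const K))) :
    ∃ (u : D.R ⟶ K) (_ : IsMonHom u), D.law.map (HRing.map (E := stdEven T) u) =
      (W.orientation (cofTriangles F) (isSusp_lineCls e (SeqMonoid.const K))).law.map (coefK e K)

/-- Second main output of part M. -/
def MU_univ_statement : Prop :=
  ∀ (T : Type u) [Category.{v} T] [Preadditive T] [HasZeroObject T]
    [HasShift T ℤ] [∀ n : ℤ, (shiftFunctor T n).Additive] [Pretriangulated T] [IsTriangulated T]
    [MonoidalCategory T] [SymmetricCategory T] [TensorTriangulated T] [MonoidalClosed T]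
    [HasCoproducts.{0} T] [HasProducts.{0} T] [StableCat T] (F : SpaceFunctor T)
    (e : F.S.obj CCF ≅ (stdEven T).L), ∃ D : MUData T, MUUniv e D

end Vale.Agent.P251.I
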