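import Vale.Agent.P251.M.EvenShift
import Vale.Agent.P251.M.EvenRing
import Vale.Agent.P251.M.EvenCell
import Vale.Agent.P251.M.Tel
import Vale.Agent.P251.S.Amitsur
import Vale.Agent.P251.F.Cob
import Vale.Agent.P251.I.Spaces

/-!
# P251, part M: frozen interface (output of parts M and Q)

`MUData T` : a commutative monoid `R` (= `MU`) of `T` with

* ring homomorphisms `ev s : Cob Laz s → ⨁_w Hom(S^{2w}, R^{⊗ (s+1)})`, homogeneous and compatible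
  with the cosimplicial structures;
* for every odd prime `p`, `π_{odd}(R^{⊗ (s+1)} ⊗ S/p) = 0` and
  `Cob Laz s / p ≅ π_{2*}(R^{⊗ (s+1)} ⊗ S/p)`;
* `R^{⊗ n}` is a telescope of finite even complexes, the cofibre of `𝟙 ⟶ R` is `1`-connected.
-/

open CategoryTheory MonoidalCategory Limits Pretriangulated MonObj

universe v u

namespace Vale.Agent.P251.I

open Vale.Agent.P251.T Vale.Agent.P251.M Vale.Agent.P251.S Vale.Agent.P251.F

/-- The output of parts M and Q. -/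
structure MUData (T : Type u) [Category.{v} T] [Preadditive T] [HasZeroObject T]
    [HasShift T ℤ] [∀ n : ℤ, (shiftFunctor T n).Additive] [Pretriangulated T]
    [MonoidalCategory T] [SymmetricCategory T] [TensorTriangulated T] [HasCoproducts.{0} T] where
  /-- the ring spectrum `MU` -/
  R : T
  [mon : MonObj R]
  [comm : IsCommMonObj R]
  /-- the characteristic homomorphisms: the chain of formal group laws of the `s + 1` orientations
  of `R^{⊗ (s+1)}` -/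
  ev (s : ℕ) : Cob Laz s →+* HRing (stdEven T) (Am R (s + 1))
  ev_wt (s : ℕ) (w : ℤ) (z : Cob Laz s) (hz : Cob.IsWt w z) :
    ∃ a : (stdEven T).S w ⟶ Am R (s + 1), ev s z = HRing.of (stdEven T) (Am R (s + 1)) w a
  ev_map (m n : ℕ) (α : Fin (m + 1) → Fin (n + 1)) (z : Cob Laz m) :
    HRing.map (E := stdEven T) (Am.map R α) (ev m z) = ev n (Cob.map α z)
  /-- the odd homotopy of `R^{⊗ (s+1)} ⊗ S/p` vanishes -/
  odd (p : ℕ) [Fact p.Prime] (hp : p ≠ 2) (s : ℕ) (C : T) (i : 𝟙_ T ⟶ C) (δ : C ⟶ (𝟙_ T)⟦(1 : ℤ)⟧)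
    (hC : Triangle.mk ((p : ℤ) • 𝟙 (𝟙_ T)) i δ ∈ distTriang T) (k : ℤ)
    (f : (𝟙_ T)⟦2 * k + 1⟧ ⟶ Am R (s + 1) ⊗ C) : f = 0
  /-- `Cob Laz s → π_{2w}(R^{⊗ (s+1)} ⊗ S/p)` is onto -/
  surj (p : ℕ) [Fact p.Prime] (hp : p ≠ 2) (s : ℕ) (C : T) (i : 𝟙_ T ⟶ C) (δ : C ⟶ (𝟙_ T)⟦(1 : ℤ)⟧)
    (hC : Triangle.mk ((p : ℤ) • 𝟙 (𝟙_ T)) i δ ∈ distTriang T) (w : ℤ)
    (f : (stdEven T).S w ⟶ Am R (s + 1) ⊗ C) :
    ∃ (z : Cob Laz s) (a : (stdEven T).S w ⟶ Am R (s + 1)), Cob.IsWt w z ∧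
      ev s z = HRing.of (stdEven T) (Am R (s + 1)) w a ∧
      f = a ≫ (ρ_ (Am R (s + 1))).inv ≫ (Am R (s + 1) ◁ i)
  /-- its kernel is `p · Cob Laz s` -/
  ker (p : ℕ) [Fact p.Prime] (hp : p ≠ 2) (s : ℕ) (C : T) (i : 𝟙_ T ⟶ C) (δ : C ⟶ (𝟙_ T)⟦(1 : ℤ)⟧)
    (hC : Triangle.mk ((p : ℤ) • 𝟙 (𝟙_ T)) i δ ∈ distTriang T) (w : ℤ) (z : Cob Laz s)
    (hz : Cob.IsWt w z) (a : (stdEven T).S w ⟶ Am R (s + 1))
    (ha : ev s z = HRing.of (stdEven T) (Am R (s + 1)) w a)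
    (h : a ≫ (ρ_ (Am R (s + 1))).inv ≫ (Am R (s + 1) ◁ i) = 0) :
    ∃ y : Cob Laz s, Cob.IsWt w y ∧ z = (p : ℤ) • y
  /-- the tensor powers of `R` are telescopes of finite even complexes -/
  cells (n : ℕ) : ∃ (F : ℕ ⥤ T) (ι : ∀ j, F.obj j ⟶ Am R n), M.IsTel F (Am R n) ι ∧
    ∀ j, EvenCell T 0 (F.obj j)
  /-- the cofibre `J` of the unit has only cells of dimension at least `2` -/
  conn (J : T) (ρ : R ⟶ J) (δ : J ⟶ (𝟙_ T)⟦(1 : ℤ)⟧)
    (hJ : Triangle.mk (η[R] : 𝟙_ T ⟶ R) ρ δ ∈ distTriang T) : BigCell T 2 J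
  /-- the unit is connective: `π_k 𝟙 = 0` for `k < 0` -/
  conn_unit : Conn 0 (𝟙_ T)

attribute [instance] MUData.mon MUData.comm

/-- Main output of parts M and Q. -/
def MU_statement : Prop :=
  ∀ (T : Type u) [Category.{v} T] [Preadditive T] [HasZeroObject T]
    [HasShift T ℤ] [∀ n : ℤ, (shiftFunctor T n).Additive] [Pretriangulated T] [IsTriangulated T]
    [MonoidalCategory T] [SymmetricCategory T] [TensorTriangulated T] [MonoidalClosed T]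
    [HasCoproducts.{0} T] [HasProducts.{0} T] [StableCat T], SpaceFunctor T → Nonempty (MUData T)

end Vale.Agent.P251.I
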