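import Vale.Agent.P251.F.LawHom
import Vale.Agent.P251.S.LimComplex

/-!
# P251, part F: frozen interface

`Laz`, `Cob N n`, `Cob.d`, `Cob.cup`, weights: see `F/Laz.lean`, `F/Cob.lean`.
`NN p h j = v_h⁻¹ Laz/(p, I_h^j)` (`F/Inv.lean`), `LP p = Laz/p`.

* `Lazard_statement`, `LazInj_statement`, `LazReg_statement`: structure of the Lazard ring;
* `F3_statement`: vanishing line for `Laz/p`;
* `FV_statement`: vanishing above `n²` at height `n = p`;
* `FS_statement`: sparseness at height `p - 1`;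
* `FD_statement`: detection at height `p - 1`.
-/

namespace Vale.Agent.P251.I

open Vale.Agent.P251.F Vale.Agent.P251.S

/-! ### structure of the Lazard ring -/

/-- `Laz = ℤ[x_1, x_2, …]` with `x_{n+1}` (here `x n`) of weight `n + 1`. -/
def Lazard_statement : Prop :=
  ∃ x : ℕ → Laz, (∀ n, Cob.IsWt (N := Laz) (n + 1 : ℕ) (MvPolynomial.C (x n) : Cob Laz 0)) ∧
    Function.Bijective (MvPolynomial.eval₂Hom (Int.castRingHom Laz) x)

/-- The additive law. -/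
noncomputable def addLaw (B : Type*) [CommRing B] : Law B where
  toFG := FormalGroup.𝔾ₐ
  comm := inferInstance

/-- `Laz → ℤ[b_0, b_1, …]`, the law of the universal strict series applied to the additive law,
is injective. -/
def LazInj_statement : Prop :=
  Function.Injective (Laz.lift ((strictMk (MvPolynomial.X : ℕ → MvPolynomial ℕ ℤ)) •
    addLaw (MvPolynomial ℕ ℤ)) : Laz →+* MvPolynomial ℕ ℤ)

/-- `(p, v_1, v_2, …)` is a regular sequence: multiplication by `v_h` is injective modulo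
`I_h = (v_0, …, v_{h-1})`, and `I_h` is a proper ideal. -/
def LazReg_statement : Prop :=
  ∀ (p : ℕ) [Fact p.Prime] (h : ℕ), Laz.I p h ≠ ⊤ ∧
    ∀ a : Laz, Laz.v p h * a ∈ Laz.I p h → a ∈ Laz.I p h

/-! ### `Laz/p` -/

/-- `Laz/p`. -/
abbrev LP (p : ℕ) : Type := Laz ⧸ Ideal.span {(p : Laz)}

theorem invariant_p (p : ℕ) : LawRing.Invariant (Ideal.span {(p : Laz)}) := by
  intro B _ f x hx
  have h1 : (p : B) = 0 := by
    have := hx (p : Laz) (Ideal.mem_span_singleton_self _)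
    rwa [map_natCast] at this
  have : Ideal.span {(p : Laz)} ≤ RingHom.ker (LawRing.act f x) := by
    rw [Ideal.span_singleton_le_iff_mem, RingHom.mem_ker, map_natCast, h1]
  exact fun a ha => this ha

noncomputable instance instLawRingLP (p : ℕ) : LawRing (LP p) :=
  LawRing.quotient _ (invariant_p p)

/-- Vanishing line: `H^s(Laz/p)_w = 0` unless `(p-1) ∣ w` and `w ≥ (p-1) s`. -/
def F3_statement : Prop :=
  ∀ (p : ℕ) [Fact p.Prime], p ≠ 2 → ∀ (w : ℤ),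
    (∀ z : Cob (LP p) 0, Cob.IsWt w z → Cob.d 0 z = 0 →
      ¬ (((p : ℤ) - 1) ∣ w ∧ 0 ≤ w) → z = 0) ∧
    (∀ (s : ℕ) (z : Cob (LP p) (s + 1)), Cob.IsWt w z → Cob.d (s + 1) z = 0 →
      ¬ (((p : ℤ) - 1) ∣ w ∧ ((p : ℤ) - 1) * (s + 1) ≤ w) →
      ∃ y : Cob (LP p) s, Cob.IsWt w y ∧ Cob.d s y = z)

/-- In a law ring killed by `p` whose points are determined by their laws, the cohomology is
concentrated in weights divisible by `p - 1`. -/
def F3w_statement : Prop :=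
  ∀ (p : ℕ) [Fact p.Prime], p ≠ 2 → ∀ (N : Type) [CommRing N] [LawRing N], LawRing.Epi N →
    (p : N) = 0 → ∀ w : ℤ, ¬ ((p : ℤ) - 1) ∣ w →
    (∀ z : Cob N 0, Cob.IsWt w z → Cob.d 0 z = 0 → z = 0) ∧
    (∀ (s : ℕ) (z : Cob N (s + 1)), Cob.IsWt w z → Cob.d (s + 1) z = 0 →
      ∃ y : Cob N s, Cob.IsWt w y ∧ Cob.d s y = z)

/-! ### height `h` -/

/-- The tower `j ↦ C^s(v_h⁻¹ Laz/(p, I_h^{j+1}))_w` of cochain complexes. -/
noncomputable def towerN (p h : ℕ) [Fact p.Prime] (w : ℤ) : TowerCx.{0} where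
  C s j := Cob.wt (NN p h (j + 1)) s w
  d s j := ((Cob.d s).comp (Cob.wt (NN p h (j + 1)) s w).subtype).codRestrict
    (Cob.wt (NN p h (j + 1)) (s + 1) w) fun x => Cob.IsWt.d x.2
  r s j := (((Cob.mapRing (NN.red p h (Nat.le_succ (j + 1))) s).toAddMonoidHom).comp
    (Cob.wt (NN p h (j + 2)) s w).subtype).codRestrict
    (Cob.wt (NN p h (j + 1)) s w) fun x => Cob.IsWt.mapRing (isLawHom_NN_red p h _) x.2
  d_d _ _ x := Subtype.ext (Cob.d_d x.1)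
  d_r _ _ x := Subtype.ext (Cob.mapRing_d (isLawHom_NN_red p h _) x.1).symm

/-- Height `n = p`: `H^s(v_n⁻¹ Laz/(p, I_n^j)) = 0` for `s > n²`, in every weight. -/
def FV_statement : Prop :=
  ∀ (p : ℕ) [Fact p.Prime], p ≠ 2 → ∀ (j : ℕ) (w : ℤ) (s : ℕ), p ^ 2 ≤ s →
    ∀ z : Cob (NN p p (j + 1)) (s + 1), Cob.IsWt w z → Cob.d (s + 1) z = 0 →
      ∃ y : Cob (NN p p (j + 1)) s, Cob.IsWt w y ∧ Cob.d s y = z

/-- Height `p - 1`: the cohomology in large degrees is pro-zero in all weights `w` except those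
with `(p-1) ∣ w` and `w ≡ 0, -1 mod p`. -/
def FS_statement : Prop :=
  ∀ (p : ℕ) [Fact p.Prime], p ≠ 2 → ∃ s₀ : ℕ, ∀ (w : ℤ),
    ¬ (((p : ℤ) - 1) ∣ w ∧ ((p : ℤ) ∣ w ∨ (p : ℤ) ∣ w + 1)) → ∀ s : ℕ, s₀ ≤ s →
      (towerN p (p - 1) w).ProZero s

/-! ### detection -/

/-- `t` is `t_1`: `p t = η_R(v_1) - η_L(v_1)`. -/
def IsT1 (p : ℕ) (t : Cob Laz 1) : Prop :=
  (p : ℤ) • t = Cob.d 0 (MvPolynomial.C (Laz.v p 1))

/-- The cochain `b = ∑_{0<i<p} (binom(p,i)/p) t^i ∪ t^{p-i} = -(1/p) d(t^p)`. -/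
noncomputable def bcls (p : ℕ) (t : Cob Laz 1) : Cob Laz 2 :=
  ∑ i ∈ Finset.Ioo 0 p, ((p.choose i / p : ℕ) : ℤ) • Cob.cup (t ^ i) (t ^ (p - i))

/-- Cup powers of a `2`-cochain. -/
noncomputable def cupPow {N : Type} [CommRing N] [LawRing N] (b : Cob N 2) :
    ∀ K : ℕ, Cob N (2 * K)
  | 0 => 1
  | K + 1 => Cob.cup (cupPow b K) b

/-- Existence of `t_1`. -/
def T1_statement : Prop :=
  ∀ (p : ℕ) [Fact p.Prime], ∃ t : Cob Laz 1, IsT1 p t

/-- `b` is a cocycle of weight `p (p-1)` with `p b = - d(t^p)`. -/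
def BCocycle_statement : Prop :=
  ∀ (p : ℕ) [Fact p.Prime], p ≠ 2 → ∀ t : Cob Laz 1, IsT1 p t →
    Cob.IsWt (p - 1 : ℕ) t ∧ Cob.d 1 t = 0 ∧ Cob.IsWt (p * (p - 1) : ℕ) (bcls p t) ∧
      Cob.d 2 (bcls p t) = 0 ∧ (p : ℤ) • bcls p t = - Cob.d 1 (t ^ p)

/-- All cup powers of `b` are non-zero in the cohomology of `v_h⁻¹ Laz/I_h`, `h = p - 1`. -/
def FD_statement : Prop :=
  ∀ (p : ℕ) [Fact p.Prime], p ≠ 2 → ∀ t : Cob Laz 1, IsT1 p t → ∀ K : ℕ,
    ¬ ∃ y : Cob (NN p (p - 1) 1) (2 * K + 1), Cob.d (2 * K + 1) y =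
      Cob.mapRing (LawRing.ofLaz (NN p (p - 1) 1)) (2 * (K + 1)) (cupPow (bcls p t) (K + 1))

end Vale.Agent.P251.I
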