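import Vale.Agent.P251.C.Defs

/-!
# P251, part C: frozen interface

* `IsUnif p d U`: coordinates of a uniform pro-`p` group `U`;
* `VirtUnif p d G`: `U ≤ S ≤ G` normal, `U` open and uniform, `S / U` a `p`-group, `p ∤ [G : S]`;
* `CycZero p G u`: the map `u` of `G`-modules induces zero in the Tate cohomology of all
  subgroups of order `p`;
* `CV_statement`: if `G` has no elements of order `p`, then `H^s(G; M) = 0` for `s > d`;
* `CP_statement`: if the finite `p`-subgroups of `G` have order at most `p`, then a composite of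
  sufficiently many maps satisfying `CycZero` is zero in `H^s(G; -)`, for all large `s`.
-/

namespace Vale.Agent.P251.I

open Vale.Agent.P251.C

/-- Coordinates on a uniform pro-`p` group: `U` is `ℤ_[p] ^ d` with `x * y = x + y + p B(x, y)`. -/
def IsUnif (p d : ℕ) [Fact p.Prime] (U : Type*) [Group U] [TopologicalSpace U] : Prop :=
  ∃ (B : (Fin d → ℤ_[p]) →ₗ[ℤ_[p]] (Fin d → ℤ_[p]) →ₗ[ℤ_[p]] (Fin d → ℤ_[p]))
    (e : U ≃ₜ (Fin d → ℤ_[p])), ∀ x y : U, e (x * y) = e x + e y + (p : ℤ_[p]) • B (e x) (e y)

/-- `G` is virtually uniform, with a normal open uniform subgroup `U` contained in a normal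
subgroup `S` of index prime to `p` such that `[S : U]` is a power of `p`. -/
structure VirtUnif (p d : ℕ) [Fact p.Prime] (G : Type*) [Group G] [TopologicalSpace G] where
  /-- the normal subgroup of index prime to `p` -/
  S : Subgroup G
  /-- the uniform subgroup -/
  U : Subgroup G
  S_normal : S.Normal
  U_normal : U.Normal
  le : U ≤ S
  isOpen : IsOpen (U : Set G)
  coprime : p.Coprime S.index
  relIndex : ∃ k : ℕ, U.relIndex S = p ^ k
  unif : IsUnif p d U

/-- The map `u` is zero in the Tate cohomology of all subgroups of order `p` of `G`. -/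
def CycZero (p : ℕ) (G : Type*) {M N : Type*} [Group G] [AddCommGroup M] [DistribMulAction G M]
    [AddCommGroup N] [DistribMulAction G N] (u : M → N) : Prop :=
  ∀ σ : G, orderOf σ = p →
    (∀ m : M, σ • m = m → ∃ z : N, u m = ∑ i ∈ Finset.range p, σ ^ i • z) ∧
    (∀ m : M, ∑ i ∈ Finset.range p, σ ^ i • m = 0 → ∃ z : N, u m = σ • z - z)

/-- The composite `M k → M 0` of the maps of a tower. -/
def towerMap {M : ℕ → Type*} (f : ∀ i, M (i + 1) → M i) : ∀ k : ℕ, M k → M 0
  | 0 => id
  | k + 1 => fun x => towerMap f k (f k x)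

/-- Vanishing of the cohomology above the dimension, in the absence of elements of order `p`. -/
def CV_statement : Prop :=
  ∀ (p d : ℕ) [Fact p.Prime] (G : Type) [Group G] [TopologicalSpace G] [IsTopologicalGroup G]
    [CompactSpace G] [T2Space G] [TotallyDisconnectedSpace G],
    p ≠ 2 → VirtUnif p d G → (∀ g : G, g ^ p = 1 → g = 1) →
    ∀ (M : Type) [AddCommGroup M] [DistribMulAction G M] [DiscMod G M],
      (∀ m : M, p • m = 0) → ∀ s : ℕ, d < s → HZero G M s

/-- If all finite `p`-subgroups have order at most `p`: there is `K` such that for every tower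
of discrete modules killed by `p` whose maps satisfy `CycZero`, the composite `M K → M 0` is zero
in `H^s(G; -)` for all `s > K`. -/
def CP_statement : Prop :=
  ∀ (p d : ℕ) [Fact p.Prime] (G : Type) [Group G] [TopologicalSpace G] [IsTopologicalGroup G]
    [CompactSpace G] [T2Space G] [TotallyDisconnectedSpace G],
    p ≠ 2 → VirtUnif p d G → (∀ P : Subgroup G, Finite P → IsPGroup p P → Nat.card P ∣ p) →
    ∃ K : ℕ, ∀ (M : ℕ → Type) [∀ i, AddCommGroup (M i)] [∀ i, DistribMulAction G (M i)]
      [∀ i, DiscMod G (M i)] (f : ∀ i, M (i + 1) →+[G] M i),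
      (∀ i, ∀ m : M i, p • m = 0) → (∀ i, CycZero p G (f i)) →
      ∀ s : ℕ, K < s → HMapZero G s (towerMap (fun i => (f i : M (i + 1) → M i)) K)

end Vale.Agent.P251.I
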